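import Vale.Agent.P011Z.Cl.D4d.B

/-!
Block D4d: the move in the coordinates of the double six.
-/

open Matrix Module

noncomputable section

namespace Vale.Agent.P011Z.Cl.D4dx

open Vale.Agent.P011.D4 Vale.Agent.P011.D4.Oct Vale.Agent.P011.E6 Vale.Agent.P011.E6.Alb

open ZDx

variable {D : FD} {d : Om} {q : Fin 3 → Om}

/-- Block diagonal matrices. -/
def bd (T : Fin 3 → Matrix (Fin 2) (Fin 2) Om) : Matrix I6 I6 Om :=
  fun p r => if p.1 = r.1 then T p.1 p.2 r.2 else 0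

variable {S T : Fin 3 → Matrix (Fin 2) (Fin 2) Om}

theorem bd_mulVec (u : I6 → Om) (i : Fin 3) (a : Fin 2) :
    (bd T *ᵥ u) (i, a) = T i a 0 * u (i, 0) + T i a 1 * u (i, 1) := by
  simp [mulVec, dotProduct, bd, Fintype.sum_prod_type]

theorem bd_mul (w : Matrix I6 I6 Om) (i : Fin 3) (a : Fin 2) (r : I6) :
    (bd T * w) (i, a) r = T i a 0 * w (i, 0) r + T i a 1 * w (i, 1) r :=
  bd_mulVec (fun p => w p r) i a

theorem mul_bd (w : Matrix I6 I6 Om) (p : I6) (j : Fin 3) (b : Fin 2) :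
    (w * bd T) p (j, b) = w p (j, 0) * T j 0 b + w p (j, 1) * T j 1 b := by
  simp [Matrix.mul_apply, bd, Fintype.sum_prod_type]

theorem bd_tr : (bd T)ᵀ = bd fun i => (T i)ᵀ := by
  ext ⟨i, a⟩ ⟨j, b⟩
  by_cases h : i = j
  · subst h
    simp [bd]
  · simp [bd, h, Ne.symm h]

theorem bd_det : (bd T).det = ∏ i, (T i).det := by
  rw [← det_blockDiagonal, ← det_submatrix_equiv_self (Equiv.prodComm (Fin 3) (Fin 2))]
  rfl

theorem bd_inv (h : ∀ i, S i * T i = 1) : (bd T)⁻¹ = bd S := by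
  refine inv_eq_left_inv ?_
  ext ⟨i, a⟩ ⟨j, b⟩
  rw [bd_mul]
  by_cases k : i = j
  · subst k
    have k1 := congrFun (congrFun (h i) a) b
    rw [Matrix.mul_apply, Fin.sum_univ_two] at k1
    simpa [bd, Matrix.one_apply] using k1
  · simp [bd, k]

theorem exists_bd (h : ∀ i, S i * T i = 1) {n : Om} (hn : n = ∏ i, (T i).det) (h0 : n ≠ 0) :
    ∃ ψ : J ≃ₗ[Om] J, Sim 1 ψ ∧
      (∀ x i a, up (ψ x) (i, a) = T i a 0 * up x (i, 0) + T i a 1 * up x (i, 1)) ∧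
      (∀ x i a, um (ψ x) (i, a) = n * (T i a 0 * um x (i, 0) + T i a 1 * um x (i, 1))) ∧
      ∀ x i a j b, om6 (ψ x) (i, a) (j, b) =
        n * ((S i 0 a * om6 x (i, 0) (j, 0) + S i 1 a * om6 x (i, 1) (j, 0)) * S j 0 b +
          (S i 0 a * om6 x (i, 0) (j, 1) + S i 1 a * om6 x (i, 1) (j, 1)) * S j 1 b) := by
  obtain ⟨ψ, h1, h2, -⟩ := exists_gl6 (B := !![1, 0; 0, n]) (P := bd T) h0
    (by rw [bd_det, ← hn, det_fin_two_of]; ring)
  refine ⟨ψ, h1, fun x i a => ?_, fun x i a => ?_, fun x i a j b => ?_⟩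
  · rw [h2, (six_gl6 x).1, bd_mulVec]
    simp
  · rw [h2, (six_gl6 x).2.2, bd_mulVec]
    simp
    ring
  · rw [h2, (six_gl6 x).2.1, ← transpose_nonsing_inv, bd_inv h, bd_tr, Pfx.mp_one,
      Matrix.smul_apply, mul_bd, bd_mul, bd_mul]
    rfl

theorem yb_star (y : O) (a b : Fin 2) : yb (star y) a b = -yb y b a := by
  fin_cases a <;> fin_cases b <;>
    simp [yb, (z_star _).1, (z_star _).2.1, (z_star _).2.2.1, (z_star _).2.2.2]

theorem six_hur (π : Equiv.Perm (Fin 3)) (σ : Gq) (x : J) :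
    (∀ i a, up (hur π σ (oa σ) x) (i, a) = eps π * σ (up x (π⁻¹ i, a))) ∧
      (∀ i a, um (hur π σ (oa σ) x) (i, a) = eps π * σ (um x (π⁻¹ i, a))) ∧
      ∀ i a j b, om6 (hur π σ (oa σ) x) (i, a) (j, b) = σ (om6 x (π⁻¹ i, a) (π⁻¹ j, b)) := by
  refine ⟨fun i a => ?_, fun i a => ?_, fun i a j b => ?_⟩
  · fin_cases a
    · change up _ (i, 0) = _ * σ (up x (_, 0))
      rw [up_0, up_0, Prcx.sl_hur, (zab_sgs _ _).1, (z_oa _ _).2.2.1]
      rfl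
    · change up _ (i, 1) = _ * σ (up x (_, 1))
      rw [up_1, up_1, Prcx.sl_hur, (zab_sgs _ _).2, (z_oa _ _).2.2.2]
      rfl
  · fin_cases a
    · change um _ (i, 0) = _ * σ (um x (_, 0))
      rw [um_0, um_0, Prcx.sl_hur, (zab_sgs _ _).1, (z_oa _ _).2.2.1, map_neg, mul_neg]
      rfl
    · change um _ (i, 1) = _ * σ (um x (_, 1))
      rw [um_1, um_1, Prcx.sl_hur, (zab_sgs _ _).2, (z_oa _ _).2.2.2]
      rfl
  · refine three (P := fun i j => ∀ a b, om6 (hur π σ (oa σ) x) (i, a) (j, b) =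
      σ (om6 x (π⁻¹ i, a) (π⁻¹ j, b))) (fun i a b => ?_) (fun i a b => ?_) (fun i a b => ?_) i j a b
    · rw [om6_d, om6_d, Prcx.dg_hur, map_mul, j2_map]
    · rw [om6_u, Prcx.sl_hur, sgs]
      split_ifs with hπ
      · rw [(rot π hπ i).1, (rot π hπ i).2, om6_u, yb_oa]
      · rw [(rot' π hπ i).1, (rot' π hπ i).2, om6_l, yb_star, yb_oa, map_neg]
    · rw [om6_l, Prcx.sl_hur, sgs]
      split_ifs with hπ
      · rw [(rot π hπ i).1, (rot π hπ i).2, om6_l, yb_oa, map_neg]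
      · rw [(rot' π hπ i).1, (rot' π hπ i).2, om6_u, yb_star, yb_oa, neg_neg]

theorem six_swJ (s : Gq) {g : Fin 3 → Om} (hg : ∀ i, g i ≠ 0) (x : J) :
    (∀ i, up (swJ s q (diagonal g) x) (i, 0) = (g 0)⁻¹ * s (um x (i, 1)) ∧
      up (swJ s q (diagonal g) x) (i, 1) = -(q (i + 1) * q (i + 2) * g 1 * s (um x (i, 0))) ∧
      um (swJ s q (diagonal g) x) (i, 0) = -((g 1)⁻¹ * s (up x (i, 1))) ∧
      um (swJ s q (diagonal g) x) (i, 1) = q (i + 1) * q (i + 2) * g 0 * s (up x (i, 0))) ∧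
    ∀ i j, om6 (swJ s q (diagonal g) x) (i, 0) (j, 0) = -((g 2)⁻¹ * s (om6 x (i, 1) (j, 1))) ∧
      om6 (swJ s q (diagonal g) x) (i, 0) (j, 1) = -(q j * s (om6 x (i, 1) (j, 0))) ∧
      om6 (swJ s q (diagonal g) x) (i, 1) (j, 0) = -(q i * s (om6 x (i, 0) (j, 1))) ∧
      om6 (swJ s q (diagonal g) x) (i, 1) (j, 1) = -(q i * q j * g 2 * s (om6 x (i, 0) (j, 0))) := by
  have h1 : (diagonal g)ᵀ⁻¹ = diagonal fun i => (g i)⁻¹ := inv_eq_left_inv (by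
    rw [diagonal_transpose, diagonal_mul_diagonal, ← diagonal_one]
    exact congrArg _ (funext fun i => inv_mul_cancel₀ (hg i)))
  refine ⟨fun i => ?_, three (fun i => ?_) (fun i => ?_) fun i => ?_⟩ <;>
    simp only [up_0, up_1, um_0, um_1, om6_d, om6_u, om6_l, yb_e, j2_e, dg_swJ, sl_swJ, h1, zp_zorn,
      zm_zorn, za_zorn, zb_zorn, mulVec_diagonal, Function.comp_apply, Pi.smul_apply, smul_eq_mul,
      map_neg, map_mul, map_zero, map_one] <;>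
    refine ⟨?_, ?_, ?_, ?_⟩ <;> first | trivial | ring

theorem mv_b (h : D.OK) (hd : D.Qd d) {g : Fin 3 → Om} (hn : D.NF d q (Matrix.diagonal g))
    (hq : q 0 * q 1 * q 2 = 1) {t : Fin 3 → Om}
    (ht : ∀ σ ∈ D.G, σ d = d → ∀ i, σ (t i) = t (D.π σ i)) {s : Gq} (hs : s ∈ D.G)
    (h1 : D.π s = 1) (h2 : s d = -d) {n : Om}
    (hz : n = ∏ i, (1 + q i / (g 0 * g 1) * (t i * s (t i)))) (hz0 : n ≠ 0) :
    ∃ ψ : J ≃ₗ[Om] J, Sim 1 ψ ∧ Prm 1 ψ ∧
      (D.conj ψ).NF d q (Matrix.diagonal ![g 0 / n, g 1 * n, g 2]) := by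
  obtain ⟨q0, H0⟩ := nf_ne hn
  have g0 : ∀ i, g i ≠ 0 := fun i => by
    rw [det_diagonal] at H0
    exact Finset.prod_ne_zero_iff.1 H0 i (Finset.mem_univ i)
  have g1 : g 0 * g 1 * g 2 = -1 := by
    have k := hn.det
    rwa [hq, one_mul, det_diagonal, Fin.prod_univ_three] at k
  have g2 : ∀ σ ∈ D.G, ∀ i, σ (g i) = g i := fun σ hσ i => by
    rcases eq_or_neg (hd.sq σ hσ) with h3 | h3
    · simpa using congrFun (congrFun (hn.Hf σ hσ h3) i) i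
    · simpa using congrFun (congrFun (hn.Hs σ hσ h3) i) i
  obtain ⟨ζ, hζ⟩ : ∃ ζ : Fin 3 → Om, ∀ i, ζ i = 1 + q i / (g 0 * g 1) * (t i * s (t i)) :=
    ⟨_, fun _ => rfl⟩
  simp only [← hζ] at hz
  have z0 : ∀ i, ζ i ≠ 0 := fun i => Finset.prod_ne_zero_iff.1 (hz ▸ hz0) i (Finset.mem_univ i)
  have z1 : ∀ σ ∈ D.G, ∀ i, σ (ζ i) = ζ (D.π σ i) := fun σ hσ i => by
    rw [hζ, hζ, map_add, map_one, map_mul, pair_mul h hd hs h1 h2 ht hσ, map_div₀, map_mul, g2 σ hσ,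
      g2 σ hσ, hn.qe σ hσ]
  have n1 : ∀ σ ∈ D.G, σ n = n := fun σ hσ => by
    rw [hz, map_prod]
    simp only [z1 σ hσ]
    exact Equiv.prod_comp (D.π σ) ζ
  obtain ⟨T, hT⟩ : ∃ T : Fin 3 → Matrix (Fin 2) (Fin 2) Om, ∀ i, T i 0 0 = 1 ∧
      T i 0 1 = -(q i / (g 0 * g 1) * s (t i)) ∧ T i 1 0 = t i ∧ T i 1 1 = 1 :=
    ⟨fun i => !![1, -(q i / (g 0 * g 1) * s (t i)); t i, 1], fun _ => ⟨rfl, rfl, rfl, rfl⟩⟩
  obtain ⟨S, hS⟩ : ∃ S : Fin 3 → Matrix (Fin 2) (Fin 2) Om, ∀ i, S i 0 0 = (ζ i)⁻¹ ∧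
      S i 0 1 = (ζ i)⁻¹ * (q i / (g 0 * g 1) * s (t i)) ∧ S i 1 0 = -((ζ i)⁻¹ * t i) ∧
      S i 1 1 = (ζ i)⁻¹ :=
    ⟨fun i => !![(ζ i)⁻¹, (ζ i)⁻¹ * (q i / (g 0 * g 1) * s (t i)); -((ζ i)⁻¹ * t i), (ζ i)⁻¹],
      fun _ => ⟨rfl, rfl, rfl, rfl⟩⟩
  have two : ∀ {P : Fin 2 → Prop}, P 0 → P 1 → ∀ a, P a := fun a b => Fin.forall_fin_two.2 ⟨a, b⟩
  have hST : ∀ i, S i * T i = 1 := fun i => by
    have k := inv_mul_cancel₀ (z0 i)
    nth_rewrite 2 [hζ] at k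
    refine Matrix.ext (two (two ?_ ?_) (two ?_ ?_)) <;>
      simp only [Matrix.mul_apply, Fin.sum_univ_two, hS, hT, one_apply_eq, ne_eq, zero_ne_one,
        one_ne_zero, not_false_eq_true, one_apply_ne]
    · linear_combination k
    · ring
    · ring
    · linear_combination k
  obtain ⟨ψ, p1, p2, p3, p4⟩ := exists_bd hST (n := n) (by
    rw [hz]
    refine Finset.prod_congr rfl fun i _ => ?_
    rw [det_fin_two, hζ]
    simp only [hT]
    ring) hz0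
  have p5 : Prm 1 ψ := fun i => by
    obtain ⟨e1, e2, e3⟩ := om6_ee i
    refine ⟨n * (S i).det, six_ext ?_ ?_ ?_⟩
    · funext ⟨k, a⟩
      simp [p2, six_lin.1.map_smul, e1]
    · ext ⟨k, a⟩ ⟨l, b⟩
      rw [p4, six_lin.2.2.map_smul, Matrix.smul_apply, Equiv.Perm.one_apply, e3, det_fin_two]
      by_cases h3 : k = i ∧ l = i
      · obtain ⟨rfl, rfl⟩ := h3
        revert a b
        refine two (two ?_ ?_) (two ?_ ?_) <;>
          simp only [j2_e, and_self, if_true, smul_eq_mul] <;> ring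
      · simp [h3]
    · funext ⟨k, a⟩
      simp [p3, six_lin.2.1.map_smul, e2]
  have g3 : ∀ i, ![g 0 / n, g 1 * n, g 2] i ≠ 0 := fun i => by
    fin_cases i
    exacts [div_ne_zero (g0 0) hz0, mul_ne_zero (g0 1) hz0, g0 2]
  have g4 : ∀ σ ∈ D.G, (diagonal ![g 0 / n, g 1 * n, g 2]).map σ =
      diagonal ![g 0 / n, g 1 * n, g 2] := fun σ hσ => by
    rw [diagonal_map (map_zero σ)]
    refine congrArg _ (funext fun i => ?_)
    fin_cases i <;> simp [g2 σ hσ, n1 σ hσ]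
  refine ⟨ψ, p1, p5, fun σ hσ h3 => ?_, fun σ hσ h3 h4 => ?_, hn.qe, fun σ hσ _ => g4 σ hσ,
    fun σ hσ _ => by rw [g4 σ hσ, diagonal_transpose], ?_⟩
  · obtain ⟨z, hz, e⟩ := hn.std σ hσ h3
    refine conj_of p1 p5 hz (w := fun _ => 1) (fun _ => one_ne_zero) e fun x => ?_
    have t1 : ∀ i a b, σ (T ((D.π σ)⁻¹ i) a b) = T i a b := fun i => by
      refine two (two ?_ ?_) (two ?_ ?_) <;>
        simp only [hT, map_one, map_neg, map_mul, map_div₀, g2 σ hσ, hn.qe σ hσ, ht σ hσ h3,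
          (pair h hs h1 h2 ht hσ _).1 h3, Prcx.app_inv]
    have t2 : ∀ i a b, σ (S ((D.π σ)⁻¹ i) a b) = S i a b := fun i => by
      refine two (two ?_ ?_) (two ?_ ?_) <;>
        simp only [hS, map_inv₀, map_neg, map_mul, map_div₀, g2 σ hσ, hn.qe σ hσ, ht σ hσ h3,
          (pair h hs h1 h2 ht hσ _).1 h3, z1 σ hσ, Prcx.app_inv]
    rw [sc_one]
    change hur (D.π σ) σ (oa σ) (ψ x) = ψ (hur (D.π σ) σ (oa σ) x)
    refine six_ext (funext fun ⟨i, a⟩ => ?_) (Matrix.ext fun ⟨i, a⟩ ⟨j, b⟩ => ?_)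
      (funext fun ⟨i, a⟩ => ?_) <;>
      simp only [six_hur, p2, p3, p4, map_add, map_mul, t1, t2, n1 σ hσ] <;> ring
  · obtain ⟨z, hz, e⟩ := hn.sw σ hσ h3 h4
    refine conj_of p1 p5 hz (w := fun _ => 1) (fun _ => one_ne_zero) e fun x => ?_
    have h5 : ∀ i, D.π σ i = i := fun i => by rw [show D.π σ = 1 from h4, Equiv.Perm.one_apply]
    have t1 : ∀ i, σ (t i) = s (t i) := fun i => by rw [((pair h hs h1 h2 ht hσ i).2 h3).1, h5]
    have t2 : ∀ i, σ (s (t i)) = t i := fun i => by rw [((pair h hs h1 h2 ht hσ i).2 h3).2, h5]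
    have t3 : ∀ i, σ (q i) = q i := fun i => by rw [hn.qe σ hσ, h5]
    have t4 : ∀ i, σ (ζ i) = ζ i := fun i => by rw [z1 σ hσ, h5]
    have t5 : ∀ i, q (i + 1) * q (i + 2) = (q i)⁻¹ := fun i =>
      eq_inv_of_mul_eq_one_right (by rw [← mul_assoc, Prcx.prod_three, hq])
    have t6 : g 2 = -(g 0 * g 1)⁻¹ := by
      rw [← neg_eq_iff_eq_neg]
      exact eq_inv_of_mul_eq_one_right (by rw [mul_neg, g1, neg_neg])
    have a0 := g0 0
    have a1 := g0 1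
    rw [sc_one]
    refine six_ext (i6_ext (fun i => ?_) fun i => ?_)
      (Matrix.ext fun ⟨i, a⟩ ⟨j, b⟩ => two (P := fun a => ∀ b, om6 (swJ σ q (diagonal g) (ψ x))
        (i, a) (j, b) = om6 (ψ (swJ σ q (diagonal ![g 0 / n, g 1 * n, g 2]) x)) (i, a) (j, b))
        (two ?_ ?_) (two ?_ ?_) a b)
      (i6_ext (fun i => ?_) fun i => ?_) <;>
      simp only [six_swJ σ g0, six_swJ σ g3, p2, p3, p4, hT, hS, map_add, map_mul, map_neg, map_one,
        map_inv₀, map_div₀, t1, t2, t3, t4, t5, n1 σ hσ, g2 σ hσ, cons_val_zero, cons_val_one,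
        cons_val_two, Nat.succ_eq_add_one, Nat.reduceAdd, tail_cons, head_cons] <;>
      have a2 := q0 i <;> (try rw [t6]) <;> field_simp <;> ring
  · rw [hq, one_mul, det_diagonal, Fin.prod_univ_three]
    simp only [cons_val_zero, cons_val_one, cons_val_two, Nat.succ_eq_add_one, Nat.reduceAdd,
      tail_cons, head_cons]
    field_simp
    linear_combination g1

end Vale.Agent.P011Z.Cl.D4dx

end
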