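import Vale.Agent.P011Z.Cl.Dat
import Vale.Agent.P011Z.Cl.Pf

/-!
Block D4d: general lemmas on the normal form.
-/

open Matrix Module

noncomputable section

namespace Vale.Agent.P011Z.Cl.D4dx

open Vale.Agent.P011.D4 Vale.Agent.P011.D4.Oct Vale.Agent.P011.E6 Vale.Agent.P011.E6.Alb

open ZDx

variable {D : FD} {d : Om} {q : Fin 3 → Om} {H : Matrix (Fin 3) (Fin 3) Om} {s σ : Gq}

theorem pi_inv (h : D.OK) (hσ : σ ∈ D.G) : D.π σ⁻¹ = (D.π σ)⁻¹ := by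
  have h1 := h.pmul _ (inv_mem hσ) _ hσ
  rw [inv_mul_cancel, h.one.1] at h1
  exact eq_inv_of_mul_eq_one_left h1.symm

theorem inv_neg (h2 : s d = -d) : s⁻¹ d = -d := by
  have h1 : s⁻¹ (s d) = d := s.symm_apply_apply d
  rw [h2, map_neg, neg_eq_iff_eq_neg] at h1
  exact h1

/-- The element `s⁻¹ σ`. -/
theorem tau (h : D.OK) (hs : s ∈ D.G) (h1 : D.π s = 1) (h2 : s d = -d) (hσ : σ ∈ D.G)
    (h3 : σ d = -d) : s⁻¹ * σ ∈ D.G ∧ (s⁻¹ * σ) d = d ∧ D.π (s⁻¹ * σ) = D.π σ := by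
  refine ⟨mul_mem (inv_mem hs) hσ, ?_, ?_⟩
  · rw [AlgEquiv.mul_apply, h3, map_neg, inv_neg h2, neg_neg]
  · rw [h.pmul _ (inv_mem hs) _ hσ, pi_inv h hs, h1, inv_one, one_mul]

/-- A family which is permuted by the elements fixing `d`, and its conjugate. -/
theorem pair (h : D.OK) (hs : s ∈ D.G) (h1 : D.π s = 1) (h2 : s d = -d) {t : Fin 3 → Om}
    (ht : ∀ σ ∈ D.G, σ d = d → ∀ i, σ (t i) = t (D.π σ i)) (hσ : σ ∈ D.G) (i : Fin 3) :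
    (σ d = d → σ (s (t i)) = s (t (D.π σ i))) ∧
      (σ d = -d → σ (t i) = s (t (D.π σ i)) ∧ σ (s (t i)) = t (D.π σ i)) := by
  have hm := mul_mem hσ hs
  have hp : D.π (σ * s) = D.π σ := by rw [h.pmul _ hσ _ hs, h1, mul_one]
  have key : ∀ ρ ∈ D.G, ρ d = -d → ρ (t i) = s (t (D.π ρ i)) := fun ρ hρ h3 => by
    obtain ⟨a, b, c⟩ := tau h hs h1 h2 hρ h3
    rw [← c, ← ht _ a b, ← AlgEquiv.mul_apply, mul_inv_cancel_left]
  refine ⟨fun h3 => ?_, fun h3 => ⟨key σ hσ h3, ?_⟩⟩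
  · rw [← AlgEquiv.mul_apply, key _ hm (by rw [AlgEquiv.mul_apply, h2, map_neg, h3]), hp]
  · rw [← AlgEquiv.mul_apply, ht _ hm (by rw [AlgEquiv.mul_apply, h2, map_neg, h3, neg_neg]), hp]

theorem pair_mul (h : D.OK) (hd : D.Qd d) (hs : s ∈ D.G) (h1 : D.π s = 1) (h2 : s d = -d)
    {t : Fin 3 → Om} (ht : ∀ σ ∈ D.G, σ d = d → ∀ i, σ (t i) = t (D.π σ i)) (hσ : σ ∈ D.G)
    (i : Fin 3) : σ (t i * s (t i)) = t (D.π σ i) * s (t (D.π σ i)) := by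
  obtain ⟨a, b⟩ := pair h hs h1 h2 ht hσ i
  rcases eq_or_neg (hd.sq σ hσ) with h3 | h3
  · rw [map_mul, a h3, ht σ hσ h3]
  · rw [map_mul, (b h3).1, (b h3).2, mul_comm]

theorem pair_mat (h : D.OK) (hs : s ∈ D.G) (h1 : D.π s = 1) (h2 : s d = -d)
    {R : Matrix (Fin 3) (Fin 3) Om} (hR : ∀ σ ∈ D.G, σ d = d → R.map σ = R) (hσ : σ ∈ D.G) :
    (σ d = d → (R.map s).map σ = R.map s) ∧
      (σ d = -d → R.map σ = R.map s ∧ (R.map s).map σ = R) := by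
  have key := fun a b => pair h hs h1 h2 (t := fun _ => R a b)
    (fun ρ hρ h3 _ => congrFun (congrFun (hR ρ hρ h3) a) b) hσ 0
  exact ⟨fun h3 => Matrix.ext fun a b => (key a b).1 h3, fun h3 =>
    ⟨Matrix.ext fun a b => ((key a b).2 h3).1, Matrix.ext fun a b => ((key a b).2 h3).2⟩⟩

theorem rot' : ∀ π : Equiv.Perm (Fin 3), Equiv.Perm.sign π ≠ 1 →
    ∀ j, π⁻¹ (j + 1) = π⁻¹ j + 2 ∧ π⁻¹ (j + 2) = π⁻¹ j + 1 := by decide

theorem hur_gl3' (π : Equiv.Perm (Fin 3)) (σ : Gq) (R : Matrix (Fin 3) (Fin 3) Om)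
    (V : Fin 3 → Om) (x : J) :
    hur π σ (oa σ) (gl3 R V x) = gl3 (R.map σ) (fun j => σ (V (π⁻¹ j))) (hur π σ (oa σ) x) := by
  by_cases hπ : Equiv.Perm.sign π = 1
  · exact hur_gl3 π hπ σ R V x
  refine j_ext (fun i => ?_) fun i => ?_
  · simp only [hur, dg_jm, dg_gl3, map_mul]
  · apply z_ext <;> simp only [hur, sl_jm, sl_gl3, sgs, if_neg hπ, (z_oa σ _).1, (z_oa σ _).2.1,
      (z_oa σ _).2.2.1, (z_oa σ _).2.2.2, (z_star _).1, (z_star _).2.1, (z_star _).2.2.1,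
      (z_star _).2.2.2, zp_zorn, zm_zorn, za_zorn, zb_zorn, map_mul,
      (rot' π hπ i).1, (rot' π hπ i).2, comp_mulVec, comp_smul, ZDx.map_inv, transpose_map,
      mulVec_neg, smul_neg]
    rw [mul_comm]

theorem dg_swJ (s : Gq) (q : Fin 3 → Om) (H : Matrix (Fin 3) (Fin 3) Om) (x : J) (i : Fin 3) :
    dg (swJ s q H x) i = q i * s (dg x i) := by rw [swJ, dg_jm]

theorem sl_swJ (s : Gq) (q : Fin 3 → Om) (H : Matrix (Fin 3) (Fin 3) Om) (x : J) (i : Fin 3) :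
    sl (swJ s q H x) i = zorn (q (i + 2) * s (zm (sl x i))) (q (i + 1) * s (zp (sl x i)))
      (Hᵀ⁻¹ *ᵥ (s ∘ zb (sl x i))) ((q (i + 1) * q (i + 2)) • (H *ᵥ (s ∘ za (sl x i)))) := by
  rw [swJ, sl_jm]

theorem add3 : ∀ i : Fin 3, i + 1 + 1 = i + 2 ∧ i + 1 + 2 = i ∧ i + 2 + 1 = i ∧
    i + 2 + 2 = i + 1 := by decide

theorem swJ_gl3 {R : Matrix (Fin 3) (Fin 3) Om} {V : Fin 3 → Om} {κ : Om} (hV0 : ∀ i, V i ≠ 0)
    (hR : R.det ≠ 0) (hκ0 : κ ≠ 0) (x : J) :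
    swJ s q H (gl3 R V x) = gl3 R V (sc (fun i => κ * s (V (i + 1) * V (i + 2)))
      (swJ s (fun i => q i / (κ * V i * s (V i))) (κ • (Rᵀ * H * R.map s)) x)) := by
  have hs0 : ∀ i, s (V i) ≠ 0 := fun i => (map_ne_zero s).2 (hV0 i)
  have hT : IsUnit Rᵀ.det := by
    rw [det_transpose]
    exact hR.isUnit
  refine j_ext (fun i => ?_) fun i => ?_
  · have a0 := hV0 i
    have b0 := hs0 i
    have b1 := hs0 (i + 1)
    have b2 := hs0 (i + 2)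
    simp only [dg_swJ, dg_gl3, Prcx.dg_sc, map_mul, add3]
    field_simp
  · have a1 := hV0 (i + 1)
    have a2 := hV0 (i + 2)
    have b1 := hs0 (i + 1)
    have b2 := hs0 (i + 2)
    apply z_ext <;> simp only [sl_swJ, sl_gl3, Prcx.sl_sc, zp_zorn, zm_zorn, za_zorn, zb_zorn,
      zp_smul, zm_smul, za_smul, zb_smul, map_mul, comp_smul, comp_mulVec, mulVec_smul,
      mulVec_mulVec, smul_smul, ZDx.map_inv, transpose_map]
    · field_simp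
    · field_simp
    · rw [transpose_smul, Pfx.smul_inv0 hκ0, transpose_mul, transpose_mul, transpose_transpose,
        Matrix.mul_inv_rev, Matrix.mul_inv_rev, Matrix.mul_smul, smul_mulVec, smul_smul,
        ← Matrix.mul_assoc, ← Matrix.mul_assoc, mul_nonsing_inv _ hR.isUnit, Matrix.one_mul]
      congr 1
      field_simp
    · rw [Matrix.mul_smul, smul_mulVec, smul_smul, ← Matrix.mul_assoc, ← Matrix.mul_assoc,
        nonsing_inv_mul _ hT, Matrix.one_mul]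
      congr 1
      field_simp

/-- The maps of the other elements. -/
theorem nf_other (h : D.OK) (hn : D.NF d q H) (hs : s ∈ D.G) (h1 : D.π s = 1) (h2 : s d = -d)
    (hσ : σ ∈ D.G) (h3 : σ d = -d) : ∃ w : Fin 3 → Om, (∀ i, w i ≠ 0) ∧
      ∀ x, D.f σ x = sc w (swJ s q H (hur (D.π σ) (s⁻¹ * σ) (oa (s⁻¹ * σ)) x)) := by
  obtain ⟨a, b, c⟩ := tau h hs h1 h2 hσ h3
  obtain ⟨z, hz, e⟩ := h.coc s hs _ a
  obtain ⟨u, hu, e1⟩ := hn.sw s hs h2 h1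
  obtain ⟨v, hv, e2⟩ := hn.std _ a b
  obtain ⟨k1, k2⟩ := swJ_props s hn.det
  rw [mul_inv_cancel_left] at e
  refine ⟨z⁻¹ * (u * fun j => s (v j)), fun i => mul_ne_zero (inv_ne_zero (hz i))
    (mul_ne_zero (hu i) ((map_ne_zero s).2 (hv i))), fun x => ?_⟩
  have e3 := e x
  rw [e1, e2, k2.sc k1 hv, c] at e3
  rw [← sc_sc, ← sc_sc, ← (Prcx.sc_inv hz (D.f σ x)).2, ← e3]
  rfl

/-- Conjugation of a relation. -/
theorem conj_of {ψ : J ≃ₗ[Om] J} (h1 : Sim 1 ψ) (h2 : Prm 1 ψ) {f g g' : J → J}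
    {z w : Fin 3 → Om} (hz : ∀ i, z i ≠ 0) (hw : ∀ i, w i ≠ 0) (e : ∀ x, f x = sc z (g x))
    (e' : ∀ x, g (ψ x) = ψ (sc w (g' x))) :
    ∃ u : Fin 3 → Om, (∀ i, u i ≠ 0) ∧ ∀ x, ψ.symm (f (ψ x)) = sc u (g' x) := by
  refine ⟨z * w, fun i => mul_ne_zero (hz i) (hw i), fun x => ?_⟩
  rw [ψ.symm_apply_eq, e, e', ← sc_sc, h2.sc h1 hz]
  rfl

theorem sc_one (x : J) : sc (fun _ => 1) x = x := by rw [sc_const one_ne_zero, one_smul]

theorem mv_gl3 (h : D.OK) (hd : D.Qd d) (hn : D.NF d q H) {R : Matrix (Fin 3) (Fin 3) Om}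
    {V : Fin 3 → Om} {κ : Om} (hR : ∀ σ ∈ D.G, σ d = d → R.map σ = R)
    (hV : ∀ σ ∈ D.G, σ d = d → ∀ i, σ (V i) = V (D.π σ i)) (hV0 : ∀ i, V i ≠ 0)
    (hdet : R.det = V 0 * V 1 * V 2) (hκ : Fx D.G κ) (hκ0 : κ ≠ 0) {s : Gq} (hs : s ∈ D.G)
    (h1 : D.π s = 1) (h2 : s d = -d) : ∃ ψ : J ≃ₗ[Om] J, Sim 1 ψ ∧ Prm 1 ψ ∧
      (D.conj ψ).NF d (fun i => q i / (κ * V i * s (V i))) (κ • (Rᵀ * H * R.map s)) := by
  obtain ⟨p1, -, ψ, p2, p3, -⟩ := gl3_props hV0 hdet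
  have p4 : Prm 1 ψ := (funext p3 : ⇑ψ = gl3 R V) ▸ p1
  have hs0 : ∀ i, s (V i) ≠ 0 := fun i => (map_ne_zero s).2 (hV0 i)
  have hR0 : R.det ≠ 0 := hdet ▸ mul_ne_zero (mul_ne_zero (hV0 0) (hV0 1)) (hV0 2)
  refine ⟨ψ, p2, p4, fun σ hσ h3 => ?_, fun σ hσ h3 h4 => ?_, fun σ hσ i => ?_,
    fun σ hσ h3 => ?_, fun σ hσ h3 => ?_, ?_⟩
  · obtain ⟨z, hz, e⟩ := hn.std σ hσ h3
    refine conj_of p2 p4 hz (w := fun _ => 1) (fun _ => one_ne_zero) e fun x => ?_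
    rw [sc_one, p3, p3, hur_gl3', hR σ hσ h3]
    simp only [hV σ hσ h3, Prcx.app_inv]
    rfl
  · obtain ⟨z, hz, e⟩ := hn.sw σ hσ h3 h4
    have k1 : ∀ i, σ (V i) = s (V i) := fun i => by
      rw [((pair h hs h1 h2 hV hσ i).2 h3).1, show D.π σ = 1 from h4, Equiv.Perm.one_apply]
    refine conj_of p2 p4 hz (w := fun i => κ * σ (V (i + 1) * V (i + 2)))
      (fun i => mul_ne_zero hκ0 ((map_ne_zero σ).2 (mul_ne_zero (hV0 _) (hV0 _)))) e fun x => ?_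
    rw [p3, p3, swJ_gl3 hV0 hR0 hκ0, ((pair_mat h hs h1 h2 hR hσ).2 h3).1]
    simp only [k1]
  · change σ (q i / (κ * V i * s (V i))) = q (D.π σ i) / (κ * V (D.π σ i) * s (V (D.π σ i)))
    rw [mul_assoc, mul_assoc, map_div₀, map_mul σ κ, pair_mul h hd hs h1 h2 hV hσ, hκ σ hσ,
      hn.qe σ hσ]
  · rw [Pfx.mp_smul, Pfx.mp_mul, Pfx.mp_mul, Pfx.mp_tr, hκ σ hσ, hR σ hσ h3, hn.Hf σ hσ h3,
      (pair_mat h hs h1 h2 hR hσ).1 h3]
  · obtain ⟨k1, k2⟩ := (pair_mat h hs h1 h2 hR hσ).2 h3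
    rw [Pfx.mp_smul, Pfx.mp_mul, Pfx.mp_mul, Pfx.mp_tr, hκ σ hσ, k1, k2, hn.Hs σ hσ h3,
      transpose_smul, transpose_mul, transpose_mul, transpose_transpose, Matrix.mul_assoc]
  · have a0 := hV0 0
    have a1 := hV0 1
    have a2 := hV0 2
    have b0 := hs0 0
    have b1 := hs0 1
    have b2 := hs0 2
    have k := hn.det
    rw [det_smul, det_mul, det_mul, det_transpose, Pfx.mp_det, hdet, map_mul, map_mul,
      Fintype.card_fin]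
    field_simp
    linear_combination k

end Vale.Agent.P011Z.Cl.D4dx

end
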