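import Vale.Agent.P011Z.Cl.D4d.A

/-!
Block D4d: points of the hexagon and unipotent elements.
-/

open Matrix Module

noncomputable section

namespace Vale.Agent.P011Z.Cl.D4dx

open Vale.Agent.P011.D4 Vale.Agent.P011.D4.Oct Vale.Agent.P011.E6 Vale.Agent.P011.E6.Alb

open ZDx

variable {D : FD} {d : Om} {q : Fin 3 → Om} {H : Matrix (Fin 3) (Fin 3) Om}

/-- The sign of a permutation. -/
def eps (π : Equiv.Perm (Fin 3)) : Om := if Equiv.Perm.sign π = 1 then 1 else -1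

theorem eps_ne (π : Equiv.Perm (Fin 3)) : eps π ≠ 0 := by
  unfold eps
  split_ifs
  · exact one_ne_zero
  · exact neg_ne_zero.2 one_ne_zero

theorem map_eps (σ : Gq) (π : Equiv.Perm (Fin 3)) : σ (eps π) = eps π := by
  unfold eps
  split_ifs
  · exact map_one σ
  · rw [map_neg, map_one]

theorem zab_sgs (π : Equiv.Perm (Fin 3)) (y : O) :
    za (sgs π y) = eps π • za y ∧ zb (sgs π y) = eps π • zb y := by
  unfold eps sgs
  split_ifs
  · rw [one_smul, one_smul]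
    exact ⟨rfl, rfl⟩
  · rw [neg_one_smul, neg_one_smul]
    exact (z_star y).2.2

theorem sgs_zorn (π : Equiv.Perm (Fin 3)) (a b : Fin 3 → Om) :
    sgs π (zorn 0 0 a b) = zorn 0 0 (eps π • a) (eps π • b) := by
  refine z_ext ?_ ?_ ?_ ?_
  · unfold sgs
    split_ifs
    · rw [zp_zorn, zp_zorn]
    · rw [(z_star _).1, zp_zorn, zm_zorn]
  · unfold sgs
    split_ifs
    · rw [zm_zorn, zm_zorn]
    · rw [(z_star _).2.1, zp_zorn, zm_zorn]
  · rw [(zab_sgs π _).1, za_zorn, za_zorn]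
  · rw [(zab_sgs π _).2, zb_zorn, zb_zorn]

theorem exists_y {ι : Om →+* ℂ} {γ : Gq} (hγ : Cj ι γ) {π : Equiv.Perm (Fin 3)}
    (hπ : ∀ i, π (π i) = i) (hq : ∀ i, γ (q i) = q (π i)) (h0 : ∀ i, q i ≠ 0)
    (hp : ∀ i, π i = i → 0 < (ι (q i)).re) :
    ∃ y : Fin 3 → Om, ∀ j, q j * (y j * γ (y (π j))) = 1 := by
  have key : ∀ i, ∃ r : Om, π i = i → q i * (r * γ r) = 1 := fun i => by
    by_cases hi : π i = i
    · obtain ⟨z, z0, z1, z2⟩ := hγ.pos (by rw [hq, hi]) (hp i hi)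
      refine ⟨z⁻¹, fun _ => ?_⟩
      rw [map_inv₀, z1, z2]
      field_simp
    · exact ⟨0, fun h => absurd h hi⟩
  choose r hr using key
  refine ⟨fun j => if π j = j then r j else if j < π j then (q j)⁻¹ else 1, fun j => ?_⟩
  by_cases hj : π j = j
  · simp only [hj, if_true]
    exact hr j hj
  · have h1 : ¬ j = π j := fun h => hj h.symm
    simp only [hπ, if_neg hj, if_neg h1]
    by_cases h2 : j < π j
    · rw [if_pos h2, if_neg (not_lt.2 h2.le), map_one, mul_one, mul_inv_cancel₀ (h0 j)]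
    · rw [if_neg h2, if_pos (lt_of_le_of_ne (not_lt.1 h2) hj), one_mul, map_inv₀, hq, hπ,
        mul_inv_cancel₀ (h0 j)]

theorem nf_ne (hn : D.NF d q H) : (∀ i, q i ≠ 0) ∧ H.det ≠ 0 := by
  have k := hn.det
  refine ⟨fun i h0 => ?_, fun h0 => by simp [h0] at k⟩
  rw [← Prcx.prod_three q i, h0] at k
  simp at k

theorem tinv_mul (hH : H.det ≠ 0) (a : Fin 3 → Om) : Hᵀ⁻¹ *ᵥ (Hᵀ *ᵥ a) = a := by
  rw [mulVec_mulVec, nonsing_inv_mul _ (by rw [det_transpose]; exact hH.isUnit), one_mulVec]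

theorem qs_of (h : D.OK) (hd : D.Qd d) (hn : D.NF d q H) (hq : q 0 * q 1 * q 2 = 1)
    {ι : Om →+* ℂ} {γ : Gq} (hγ : Cj ι γ) (hG : γ ∈ D.G) (h2 : γ d = -d)
    (hp : ∀ i, D.π γ i = i → 0 < (ι (q i)).re) {a : Fin 3 → Om} (ha : a ≠ 0)
    (hi : a ⬝ᵥ (H *ᵥ (γ ∘ a)) = 0) : D.QS γ := by
  obtain ⟨s, hs, s1, s2⟩ := hd.ex
  obtain ⟨w, hw, e⟩ := nf_other h hn hs s1 s2 hG h2
  obtain ⟨q0, H0⟩ := nf_ne hn
  have p1 : D.π γ * D.π γ = 1 := by rw [← h.pmul γ hG γ hG, hγ.sq, h.one.1]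
  have p2 : (D.π γ)⁻¹ = D.π γ := inv_eq_of_mul_eq_one_right p1
  obtain ⟨y, hy⟩ := exists_y hγ (π := D.π γ) (fun i => DFunLike.congr_fun p1 i) (hn.qe γ hG) q0 hp
  obtain ⟨b, hb⟩ : ∃ b, b = H *ᵥ (γ ∘ a) := ⟨_, rfl⟩
  have b1 : γ ∘ b = Hᵀ *ᵥ a := by
    rw [hb, comp_mulVec, hn.Hs γ hG h2, Pfx.cmp_cmp, hγ.sq, Pfx.cmp_one]
  have b2 : a ⬝ᵥ b = 0 := hb ▸ hi
  have y0 : ∀ j, γ (y (D.π γ j)) ≠ 0 := fun j h0 => by
    have := hy j
    rw [h0, mul_zero, mul_zero] at this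
    exact zero_ne_one this
  refine ⟨fun j => zorn 0 0 a (y j • b), fun j h0 => ha ?_, j_ext (fun i => ?_) fun i => ?_,
    w * fun j => eps (D.π γ) * γ (y (D.π γ j)),
    fun j => mul_ne_zero (hw j) (mul_ne_zero (eps_ne _) (y0 j)), ?_⟩
  · exact (za_zorn 0 0 a (y j • b)).symm.trans ((congrArg za h0).trans za_zero)
  · rw [dg_adj, norm_z]
    simp [dg_jm, sl_jm, zp_zorn, zm_zorn, za_zorn, zb_zorn, b2, Prcx.dg_zero]
  · rw [sl_adj, Prcx.sl_zero]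
    have k : sl (jm 0 fun j => zorn 0 0 a (y j • b)) (i + 1) *
        sl (jm 0 fun j => zorn 0 0 a (y j • b)) (i + 2) = 0 := by
      apply z_ext <;> simp [(z_mul _ _).1, (z_mul _ _).2.1, (z_mul _ _).2.2.1, (z_mul _ _).2.2.2,
        sl_jm, zp_zorn, zm_zorn, za_zorn, zb_zorn, zp_zero, zm_zero, za_zero, zb_zero, b2,
        dotProduct_comm b a]
    rw [k, star_zero, dg_jm, Pi.zero_apply, zero_smul, sub_zero]
  · rw [e, ← sc_sc]
    refine congrArg _ (j_ext (fun i => ?_) fun i => ?_)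
    · simp only [dg_swJ, Prcx.dg_hur, Prcx.dg_sc, dg_jm, Pi.zero_apply, map_zero, mul_zero]
    · have k1 : oa (s⁻¹ * γ) (zorn 0 0 a (y (D.π γ i) • b)) =
          zorn 0 0 (⇑(s⁻¹ * γ) ∘ a) (⇑(s⁻¹ * γ) ∘ (y (D.π γ i) • b)) := by
        apply z_ext <;> simp only [(z_oa _ _).1, (z_oa _ _).2.1, (z_oa _ _).2.2.1,
          (z_oa _ _).2.2.2, zp_zorn, zm_zorn, za_zorn, zb_zorn, map_zero]
      rw [sl_swJ, Prcx.sl_hur, Prcx.sl_sc, sl_jm, p2, k1, sgs_zorn]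
      apply z_ext <;> simp only [zp_zorn, zm_zorn, za_zorn, zb_zorn, zp_smul, zm_smul, za_smul,
        zb_smul, map_zero, mul_zero, comp_smul s (eps _), Pfx.cmp_cmp, mul_inv_cancel_left,
        map_eps]
      · rw [comp_smul, b1, mulVec_smul, mulVec_smul, tinv_mul H0, smul_smul]
      · rw [mulVec_smul, ← hb, smul_smul, smul_smul]
        congr 1
        have k4 := Prcx.prod_three q i
        linear_combination (-(eps (D.π γ) * q (i + 1) * q (i + 2))) * hy i +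
          (eps (D.π γ) * y i * γ (y (D.π γ i))) * (k4.trans hq)

theorem not_ani_of (h : D.OK) (hd : D.Qd d) (hn : D.NF d q H) {s : Gq} (hs : s ∈ D.G)
    (h2 : s d = -d) {a : Fin 3 → Om} (ha : a ≠ 0) (hf : ∀ σ ∈ D.G, σ d = d → σ ∘ a = a)
    (hi : a ⬝ᵥ (H *ᵥ (s ∘ a)) = 0) : ¬ AniL D.grp := by
  obtain ⟨r, hr, r1, r2⟩ := hd.ex
  obtain ⟨q0, H0⟩ := nf_ne hn
  have a1 : s ∘ a = r ∘ a := by
    obtain ⟨k1, k2, -⟩ := tau h hr r1 r2 hs h2
    rw [← hf _ k1 k2, Pfx.cmp_cmp r, mul_inv_cancel_left, hf _ k1 k2]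
  have a3 : ∀ σ ∈ D.G, σ d = d → σ ∘ (r ∘ a) = r ∘ a := fun σ hσ h3 => funext fun k =>
    (pair h hr r1 r2 (t := fun _ => a k) (fun ρ hρ h4 _ => congrFun (hf ρ hρ h4) k) hσ 0).1 h3
  have a4 : r ∘ (r ∘ a) = a := funext fun k =>
    ((pair h hr r1 r2 (t := fun _ => a k) (fun ρ hρ h4 _ => congrFun (hf ρ hρ h4) k) hr 0).2 r2).2
  rw [a1] at hi
  obtain ⟨b, hb⟩ : ∃ b, b = H *ᵥ (r ∘ a) := ⟨_, rfl⟩
  rw [← hb] at hi
  have b1 : r ∘ b = Hᵀ *ᵥ a := by rw [hb, comp_mulVec, hn.Hs r hr r2, a4]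
  have b2 : ∀ σ ∈ D.G, σ d = d → σ ∘ b = b := fun σ hσ h3 => by
    rw [hb, comp_mulVec, hn.Hf σ hσ h3, a3 σ hσ h3]
  have b3 : b ≠ 0 := fun h0 => ha (by
    have k : Hᵀ *ᵥ a = 0 := by rw [← b1, h0, Pfx.cmp_zero]
    rw [← tinv_mul H0 a, k, mulVec_zero])
  obtain ⟨N, hN⟩ : ∃ N, N = d • vecMulVec a b := ⟨_, rfl⟩
  have n0 : ∀ σ : Gq, N.map σ = σ d • vecMulVec (σ ∘ a) (σ ∘ b) := fun σ => by
    rw [hN]
    ext i j
    simp [vecMulVec_apply]
  have n1 : N * N = 0 := by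
    rw [hN, smul_mul_smul_comm, vecMulVec_mul_vecMulVec, dotProduct_comm, hi, zero_smul,
      vecMulVec_zero, smul_zero]
  have n2 : (1 + N).det = 1 := by
    have k := hi
    simp only [dotProduct, Fin.sum_univ_three] at k
    rw [hN, det_fin_three]
    simp [vecMulVec_apply]
    linear_combination d * k
  have n3 : (1 + N)ᵀ⁻¹ = 1 - Nᵀ := inv_eq_left_inv (by
    rw [transpose_add, transpose_one, Matrix.sub_mul, Matrix.mul_add, Matrix.mul_add,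
      ← transpose_mul, n1]
    simp)
  have n4 : ∀ σ ∈ D.G, σ d = d → (1 + N).map σ = 1 + N := fun σ hσ h3 => by
    rw [Pfx.mp_add, Pfx.mp_id, n0, h3, hf σ hσ h3, b2 σ hσ h3, hN]
  have n5 : (1 + N)ᵀ * H * (1 + N).map r = H := by
    have k1 : H * N.map r = -(Nᵀ * H) := by
      rw [n0, r2, b1, hN, transpose_smul, transpose_vecMulVec, Matrix.mul_smul, mul_vecMulVec,
        ← hb, Matrix.smul_mul, vecMulVec_mul, mulVec_transpose, neg_smul]
    rw [Pfx.mp_add, Pfx.mp_id, Matrix.mul_assoc, Matrix.mul_add, Matrix.mul_one, k1,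
      transpose_add, transpose_one, Matrix.add_mul, Matrix.one_mul, Matrix.mul_add,
      Matrix.mul_neg, ← Matrix.mul_assoc, ← transpose_mul, n1]
    simp
  obtain ⟨-, c1, g, -, g1, -⟩ := gl3_props (R := 1 + N) (V := 1) (fun _ => one_ne_zero)
    (by rw [n2]; simp)
  have g2 : ∀ x, cub (g x) = cub x := fun x => by rw [g1, c1, n2, one_mul]
  have g3 : ∀ i, g (ee i) = ee i := fun i => by rw [g1, gl3_ee, Pi.one_apply, one_smul]
  have g4 : ∀ σ ∈ D.G, σ d = d → ∀ (π : Equiv.Perm (Fin 3)) x,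
      g (hur π σ (oa σ) x) = hur π σ (oa σ) (g x) := fun σ hσ h3 π x => by
    rw [g1, g1, hur_gl3', n4 σ hσ h3]
    simp only [Pi.one_apply, map_one]
    rfl
  have g5 : ∀ x, g (swJ r q H x) = swJ r q H (g x) := fun x => by
    rw [g1, g1, swJ_gl3 (V := 1) (κ := 1) (fun _ => one_ne_zero) (by rw [n2]; exact one_ne_zero)
      one_ne_zero, n5]
    simp only [Pi.one_apply, map_one, mul_one, div_one, one_smul, sc_one]
  have g6 : g ∈ D.grp := by
    refine ⟨g2, g3, fun σ hσ x => ?_⟩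
    rcases eq_or_neg (hd.sq σ hσ) with h3 | h3
    · obtain ⟨z, hz, e⟩ := hn.std σ hσ h3
      rw [e, e, spin_sc g2 g3 hz, g4 σ hσ h3]
    · obtain ⟨z, hz, e⟩ := nf_other h hn hr r1 r2 hσ h3
      obtain ⟨k1, k2, -⟩ := tau h hr r1 r2 hσ h3
      rw [e, e, spin_sc g2 g3 hz, g5, g4 _ k1 k2]
  have g7 : ∀ x, g x = x + jm 0 fun i => zorn 0 0 (N *ᵥ za (sl x i)) (-(Nᵀ *ᵥ zb (sl x i))) :=
    fun x => by
      rw [g1]
      refine j_ext (fun i => ?_) fun i => ?_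
      · simp only [dg_gl3, dg_add, dg_jm, Pi.one_apply, Pi.zero_apply, one_mul, add_zero]
      · apply z_ext <;> simp only [sl_gl3, sl_add, sl_jm, zp_add, zm_add, za_add, zb_add, zp_zorn,
          zm_zorn, za_zorn, zb_zorn, Pi.one_apply, one_mul, add_zero, one_smul, n3, add_mulVec,
          neg_mulVec, one_mulVec, sub_eq_add_neg]
  intro hA
  have g8 : g = 1 := hA g g6 ⟨2, fun x => by
    change g (g x - x) - (g x - x) = 0
    rw [g7 (g x - x), add_sub_cancel_left, g7 x, add_sub_cancel_left]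
    refine j_ext (fun i => ?_) fun i => ?_
    · rw [dg_jm, Prcx.dg_zero, Pi.zero_apply]
    · apply z_ext <;> simp only [sl_jm, Prcx.sl_zero, zp_zorn, zm_zorn, za_zorn, zb_zorn, zp_zero,
        zm_zero, za_zero, zb_zero, mulVec_neg, mulVec_mulVec, ← transpose_mul, n1, transpose_zero,
        zero_mulVec, neg_zero]⟩
  obtain ⟨k, hk⟩ := Function.ne_iff.1 b3
  obtain ⟨l, hl⟩ := Function.ne_iff.1 ha
  have g9 := g7 (jm 0 fun _ => zorn 0 0 (Pi.single k 1) 0)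
  rw [g8, LinearEquiv.coe_one, id, left_eq_add] at g9
  have g10 := congrArg (fun x => za (sl x 0) l) g9
  simp only [sl_jm, za_zorn, Prcx.sl_zero, za_zero, mulVec_single_one, hN] at g10
  exact mul_ne_zero hd.d0 (mul_ne_zero hl hk) g10

end Vale.Agent.P011Z.Cl.D4dx

end
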